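import Vale.Agent.P275S.Calc
import Vale.Agent.P275CL.Lin

/-!
# P275, block LOOP: the derivation of a loop of maps
-/

open CategoryTheory

noncomputable section

set_option backward.isDefEq.respectTransparency false

namespace Vale.Agent.P275LO

open P275S

/-- the cohomology of a space -/
abbrev HC (Y : Type) [TopologicalSpace Y] : Type := H ℂ (TopCat.of Y)

/-- the classes of degree `m` -/
abbrev HD (Y : Type) [TopologicalSpace Y] (m : ℤ) : Submodule ℂ (HC Y) := Hd ℂ (TopCat.of Y) m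

variable {Y Y' Y'' F F' : Type} [TopologicalSpace Y] [TopologicalSpace Y'] [TopologicalSpace Y'']
  [TopologicalSpace F] [TopologicalSpace F']

/-- pull back of classes along a continuous map -/
def pc (f : C(Y', Y)) : HC Y →ₐ[ℂ] HC Y' := pb (TopCat.ofHom f)

theorem pc_comp (g : C(Y'', Y')) (f : C(Y', Y)) (a : HC Y) : pc g (pc f a) = pc (f.comp g) a :=
  pb_comp _ _ a

theorem pc_pc (g : C(Y'', Y')) (f : C(Y', Y)) (h : C(Y'', Y)) (e : ∀ y, f (g y) = h y)
    (a : HC Y) : pc g (pc f a) = pc h a := by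
  rw [pc_comp, show f.comp g = h from ContinuousMap.ext e]

theorem pc_id (f : C(Y, Y)) (e : ∀ y, f y = y) (a : HC Y) : pc f a = a := by
  rw [show f = ContinuousMap.id Y from ContinuousMap.ext e]
  exact pb_id a

theorem pc_mem (f : C(Y', Y)) {m : ℤ} {a : HC Y} (ha : a ∈ HD Y m) : pc f a ∈ HD Y' m :=
  pb_mem _ ha

theorem hc_ind {P : HC Y → Prop} (h0 : P 0) (hm : ∀ m, ∀ a ∈ HD Y m, P a)
    (hadd : ∀ a b, P a → P b → P (a + b)) (a : HC Y) : P a := KG.ind_deg h0 hm hadd a

/-- the component of degree `m` -/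
def pj (m : ℤ) : HC Y →ₗ[ℂ] HC Y := KG.pr m

theorem pj_mem (m : ℤ) (a : HC Y) : pj m a ∈ HD Y m := KG.pr_mem_deg m a

theorem pj_of_mem {m : ℤ} {a : HC Y} (h : a ∈ HD Y m) : pj m a = a := KG.pr_of_mem h

theorem pj_of_ne {m n : ℤ} {a : HC Y} (h : a ∈ HD Y n) (e : n ≠ m) : pj m a = 0 :=
  KG.pr_of_ne h e

theorem pj_map (T : HC Y →ₗ[ℂ] HC Y') (d : ℤ) (hT : ∀ m, ∀ a ∈ HD Y m, T a ∈ HD Y' (m + d))
    (m : ℤ) (a : HC Y) : pj (m + d) (T a) = T (pj m a) := by
  induction a using hc_ind with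
  | h0 => simp only [map_zero]
  | hadd a b ha hb => simp only [map_add, ha, hb]
  | hm n a ha =>
    by_cases e : n = m
    · subst e
      rw [pj_of_mem ha, pj_of_mem (hT n a ha)]
    · rw [pj_of_ne ha e, pj_of_ne (hT n a ha) (by omega), map_zero]

instance nice_unit : Nice (TopCat.of Unit) :=
  ⟨inferInstanceAs (LocallyCompactSpace Unit), inferInstanceAs (T2Space Unit),
    inferInstanceAs (SecondCountableTopology Unit)⟩

instance nice_circle : Nice (TopCat.of Circle) :=
  ⟨inferInstanceAs (LocallyCompactSpace Circle), inferInstanceAs (T2Space Circle),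
    inferInstanceAs (SecondCountableTopology Circle)⟩

instance nice_prod [h : Nice (TopCat.of Y)] [h' : Nice (TopCat.of Y')] :
    Nice (TopCat.of (Y × Y')) :=
  haveI : LocallyCompactSpace Y := h.lc
  haveI : T2Space Y := h.t2
  haveI : SecondCountableTopology Y := h.sc
  haveI : LocallyCompactSpace Y' := h'.lc
  haveI : T2Space Y' := h'.t2
  haveI : SecondCountableTopology Y' := h'.sc
  ⟨inferInstanceAs (LocallyCompactSpace (Y × Y')), inferInstanceAs (T2Space (Y × Y')),
    inferInstanceAs (SecondCountableTopology (Y × Y'))⟩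

/-- the class `a + θ b` on the product with the circle -/
def kn (θ : HC Circle) (F : Type) [TopologicalSpace F] : (HC F × HC F) →ₗ[ℂ] HC (Circle × F) :=
  (pc ContinuousMap.snd).toLinearMap.coprod
    (LinearMap.mulLeft ℂ (pc ContinuousMap.fst θ) ∘ₗ (pc ContinuousMap.snd).toLinearMap)

theorem kn_apply (θ : HC Circle) (a b : HC F) : kn θ F (a, b) =
    pc ContinuousMap.snd a + pc ContinuousMap.fst θ * pc ContinuousMap.snd b := rfl

/-- the facts on cohomology which are used -/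
structure Tk (θ : HC Circle) : Prop where
  mem : θ ∈ HD Circle 1
  comm : ∀ (Y : Type) [TopologicalSpace Y] [Nice (TopCat.of Y)] (m n : ℤ), ∀ a ∈ HD Y m,
    ∀ b ∈ HD Y n, a * b = (m * n).negOnePow • (b * a)
  kun : ∀ (F : Type) [TopologicalSpace F] [Nice (TopCat.of F)], Function.Bijective (kn θ F)
  pt : ∀ m, m ≠ 0 → ∀ a ∈ HD Unit m, a = 0
  pt0 : ∀ a ∈ HD Unit 0, ∃ c : ℂ, a = c • 1
  ne : (1 : HC Unit) ≠ 0
  det : ∀ (F : Type) [TopologicalSpace F], ∀ a ∈ HD F 0,
    (∀ y, pc (ContinuousMap.const Unit y) a = 0) → a = 0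

variable {θ : HC Circle} (T : Tk θ)
include T

theorem Tk.const {m : ℤ} (hm : m ≠ 0) {a : HC Y} (ha : a ∈ HD Y m) (y : Y) :
    pc (ContinuousMap.const Y' y) a = 0 := by
  rw [← pc_pc (ContinuousMap.const Y' ()) (ContinuousMap.const Unit y) _ fun _ => rfl,
    T.pt m hm _ (pc_mem _ ha), map_zero]

variable [Nice (TopCat.of F)]

/-- the derivation of a loop of maps -/
def Tk.L (φ : C(Circle × F, F')) : HC F' →ₗ[ℂ] HC F :=
  LinearMap.snd ℂ _ _ ∘ₗ (LinearEquiv.ofBijective _ (T.kun F)).symm.toLinearMap ∘ₗ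
    (pc φ).toLinearMap

omit T [Nice (TopCat.of F)] in
/-- the map at the base point -/
def bs (φ : C(Circle × F, F')) : C(F, F') := φ.comp (ContinuousMap.prodMk (.const F 1) (.id F))

theorem Tk.spec (φ : C(Circle × F, F')) (u : HC F') : pc φ u = kn θ F (pc (bs φ) u, T.L φ u) := by
  obtain ⟨⟨a, b⟩, h⟩ := (T.kun F).2 (pc φ u)
  have h1 : T.L φ u = b := by
    have := (LinearEquiv.ofBijective _ (T.kun F)).symm_apply_apply (a, b)
    change ((LinearEquiv.ofBijective _ (T.kun F)).symm (pc φ u)).2 = b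
    rw [← h]
    exact congrArg Prod.snd this
  have h2 := congrArg (pc (ContinuousMap.prodMk (.const F (1 : Circle)) (.id F))) h
  rw [kn_apply, map_add, map_mul, pc_comp, pc_comp, pc_comp, pc_comp, pc_id _ fun _ => rfl,
    show ContinuousMap.fst.comp (ContinuousMap.prodMk (.const F (1 : Circle)) (.id F)) =
      .const F 1 from rfl, T.const one_ne_zero T.mem, zero_mul, add_zero] at h2
  rw [h1, ← h, h2]
  rfl

theorem Tk.L_eq (φ : C(Circle × F, F')) {u : HC F'} {a b : HC F} (h : pc φ u = kn θ F (a, b)) :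
    T.L φ u = b := congrArg Prod.snd ((T.kun F).1 ((T.spec φ u).symm.trans h))

theorem Tk.L_mem (φ : C(Circle × F, F')) {m : ℤ} {u : HC F'} (hu : u ∈ HD F' m) :
    T.L φ u ∈ HD F (m - 1) := by
  have h := congrArg (pj m) (T.spec φ u)
  have h1 := pj_map (LinearMap.mulLeft ℂ (pc (ContinuousMap.fst : C(Circle × F, Circle)) θ) ∘ₗ
    (pc (ContinuousMap.snd : C(Circle × F, F))).toLinearMap) 1
    (fun n a ha => mul_mem_Hd (add_comm 1 n) (pc_mem _ T.mem) (pc_mem _ ha)) (m - 1) (T.L φ u)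
  rw [sub_add_cancel] at h1
  rw [pj_of_mem (pc_mem _ hu), kn_apply, map_add, pj_of_mem (pc_mem _ (pc_mem _ hu))] at h
  rw [T.L_eq φ (b := pj (m - 1) (T.L φ u)) (h.trans (congrArg (_ + ·) h1))]
  exact pj_mem _ _

theorem Tk.sq : θ * θ = 0 := by
  have := T.comm _ 1 1 θ T.mem θ T.mem
  rw [mul_one, Int.negOnePow_one, Units.neg_smul, one_smul, eq_neg_iff_add_eq_zero, ← two_smul ℂ,
    smul_eq_zero] at this
  exact this.resolve_left two_ne_zero

theorem Tk.kn_mul {m : ℤ} {a b : HC F} (ha : a ∈ HD F m) (hb : b ∈ HD F (m - 1)) (a' b' : HC F) :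
    kn θ F (a, b) * kn θ F (a', b') = kn θ F (a * a', b * a' + m.negOnePow • (a * b')) := by
  have hθ := pc_mem (ContinuousMap.fst : C(Circle × F, Circle)) T.mem
  have h1 := T.comm _ _ _ _ (pc_mem (ContinuousMap.snd : C(Circle × F, F)) ha) _ hθ
  have h2 := T.comm _ _ _ _ (pc_mem (ContinuousMap.snd : C(Circle × F, F)) hb) _ hθ
  have h3 := congrArg (pc (ContinuousMap.fst : C(Circle × F, Circle))) T.sq
  rw [map_mul, map_zero] at h3
  rw [mul_one] at h1
  simp only [kn_apply, Units.smul_def, map_add, map_mul, map_zsmul] at h1 h2 ⊢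
  rw [add_mul, mul_add, mul_add, ← mul_assoc, h1, mul_assoc _ _ (_ * _), ← mul_assoc (pc _ b), h2,
    smul_mul_assoc, smul_mul_assoc, mul_smul_comm, ← mul_assoc, ← mul_assoc, h3]
  simp only [zero_mul, smul_zero, add_zero, mul_add, mul_smul_comm, mul_assoc]
  abel

theorem Tk.L_mul (φ : C(Circle × F, F')) {m : ℤ} {u : HC F'} (hu : u ∈ HD F' m) (v : HC F') :
    T.L φ (u * v) = T.L φ u * pc (bs φ) v + m.negOnePow • (pc (bs φ) u * T.L φ v) :=
  T.L_eq φ (by
    rw [map_mul, T.spec φ u, T.spec φ v, T.kn_mul (pc_mem _ hu) (T.L_mem φ hu)])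

theorem Tk.th_ne : θ ≠ 0 := fun h => T.ne (congrArg Prod.snd ((T.kun Unit).1 (a₁ := (0, 1))
  (a₂ := (0, 0)) (by rw [kn_apply, kn_apply, h, map_zero, map_zero, zero_mul, zero_mul])))

omit [Nice (TopCat.of F)] in
theorem Tk.tor_ne : pc (ContinuousMap.snd : C(Circle × Circle, Circle)) θ *
    pc ContinuousMap.fst θ ≠ 0 := fun h => by
  have h1 := T.comm _ _ _ _ (pc_mem (ContinuousMap.fst : C(Circle × Circle, Circle)) T.mem) _
    (pc_mem (ContinuousMap.snd : C(Circle × Circle, Circle)) T.mem)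
  rw [h, smul_zero] at h1
  exact T.th_ne (congrArg Prod.snd ((T.kun Circle).1 (a₁ := (0, θ)) (a₂ := (0, 0))
    (by rw [kn_apply, kn_apply, h1, map_zero, mul_zero])))

theorem Tk.pull (φ : C(Circle × F, F)) (h : ∀ y, φ (1, y) = y) (s : C(Y, Circle)) (g : C(Y, F))
    (u : HC F) : pc (φ.comp (s.prodMk g)) u = pc g u + pc s θ * pc g (T.L φ u) := by
  rw [← pc_comp, T.spec, pc_id (bs φ) h, kn_apply, map_add, map_mul, pc_comp, pc_comp, pc_comp]
  rfl

/-- the value of the second derivative on a class of degree two is read on a torus -/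
theorem Tk.torus (φ φ' : C(Circle × F, F)) (h : ∀ y, φ (1, y) = y) (h' : ∀ y, φ' (1, y) = y)
    {e : HC F} (he : e ∈ HD F 2) (y : F) : ∃ (a : ℂ) (ψ : C(Circle × Circle, F)),
      (∀ s t, ψ (s, t) = φ' (t, φ (s, y))) ∧
      pc (ContinuousMap.const Unit y) (T.L φ (T.L φ' e)) = a • 1 ∧
      pc ψ e = a • (pc ContinuousMap.snd θ * pc ContinuousMap.fst θ) := by
  have m1 := T.L_mem φ he
  have m2 := T.L_mem φ' he
  have m3 := T.L_mem φ m2
  obtain ⟨a, ha⟩ := T.pt0 _ (pc_mem (ContinuousMap.const Unit y) m3)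
  refine ⟨a, φ'.comp (ContinuousMap.snd.prodMk (φ.comp
    (ContinuousMap.fst.prodMk (.const _ y)))), fun _ _ => rfl, ha, ?_⟩
  rw [T.pull φ' h', T.pull φ h, T.pull φ h, T.const two_ne_zero he, T.const (by norm_num) m1,
    T.const (by norm_num) m2, ← pc_pc (ContinuousMap.const _ ()) (ContinuousMap.const Unit y)
      (.const (Circle × Circle) y) (fun _ => rfl), ha, map_smul, map_one]
  simp only [mul_zero, zero_add, mul_smul_comm, mul_one]

/-- the Clifford trick on a space -/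
theorem Tk.onto {L : Type} {e : HC F} (he : e ∈ HD F 2) (φ : L → C(Circle × F, F))
    (h1 : ∀ l y, φ l (1, y) = y) (Q : L → L → ℂ) (κ : HC (Circle × Circle)) (hκ : κ ≠ 0)
    (num : ∀ l l' y (ψ : C(Circle × Circle, F)), (∀ s t, ψ (s, t) = φ l' (t, φ l (s, y))) →
      pc ψ e = Q l l' • κ) (ω : (L →₀ ℂ) →ₗ[ℂ] (L →₀ ℂ) →ₗ[ℂ] ℂ)
    (hω : ∀ l l', ω (.single l 1) (.single l' 1) = Q l l') (hs : ∀ l l', Q l l' = -Q l' l)
    (W : Submodule ℂ (L →₀ ℂ)) (s : ℕ) (hW : s ≤ Module.finrank ℂ W)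
    (iso : ∀ v ∈ W, ∀ w ∈ W, ω v w = 0) (nd : ∀ v ∈ W, v ≠ 0 → ∃ w, ω v w ≠ 0) (N : ℤ)
    (top : ∀ m, N < m → ∀ v ∈ HD F m, v = 0) :
    P275CL.Onto (HD F) (LinearMap.mulLeft ℂ e) (N - s) := by
  obtain ⟨c, hc, hLL⟩ : ∃ c : ℂ, c ≠ 0 ∧ ∀ l l', T.L (φ l) (T.L (φ l') e) = (c * Q l l') • 1 := by
    obtain ⟨f, hf⟩ := Module.Projective.exists_dual_eq_one ℂ T.tor_ne
    refine ⟨if f κ = 0 then 1 else f κ, by split_ifs with h; exacts [one_ne_zero, h],
      fun l l' => sub_eq_zero.1 (T.det F _ (sub_mem (T.L_mem _ (T.L_mem _ he))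
        (Submodule.smul_mem _ _ one_mem_Hd)) fun y => ?_)⟩
    obtain ⟨a, ψ, e1, e2, e3⟩ := T.torus (φ l) (φ l') (h1 l) (h1 l') he y
    rw [num l l' y ψ e1] at e3
    have e4 := congrArg f e3
    rw [map_smul, map_smul, hf, smul_eq_mul, smul_eq_mul, mul_one] at e4
    rw [map_sub, e2, map_smul, map_one, ← sub_smul]
    split_ifs with h
    · rw [h, mul_zero] at e4
      rw [← e4, zero_smul] at e3
      rw [← e4, (smul_eq_zero.1 e3).resolve_right hκ, mul_zero, sub_zero, zero_smul]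
    · rw [← e4, mul_comm, sub_self, zero_smul]
  let D : (L →₀ ℂ) →ₗ[ℂ] Module.End ℂ (HC F) := Finsupp.linearCombination ℂ fun l => T.L (φ l)
  have hD : ∀ l, D (.single l 1) = T.L (φ l) := fun l => by simp [D]
  have ind : ∀ {P : (L →₀ ℂ) → Prop}, P 0 → (∀ v w, P v → P w → P (v + w)) →
      (∀ (a : ℂ) v, P v → P (a • v)) → (∀ l, P (.single l 1)) → ∀ v, P v :=
    fun {P} a1 a2 a3 a4 v => Finsupp.induction_linear v a1 a2 fun l a => by
      simpa using a3 a _ (a4 l)
  have d1 : ∀ w m, ∀ v ∈ HD F m, D w v ∈ HD F (m - 1) := fun w m v hv =>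
    ind (P := fun w => D w v ∈ HD F (m - 1)) (by rw [map_zero]; exact zero_mem _)
      (fun _ _ a b => by rw [map_add]; exact add_mem a b)
      (fun _ _ a => by rw [map_smul]; exact Submodule.smul_mem _ _ a)
      (fun l => by rw [hD]; exact T.L_mem _ hv) w
  have d2 : ∀ w m, ∀ u ∈ HD F m, ∀ v, D w (u * v) = D w u * v + m.negOnePow • (u * D w v) :=
    fun w m u hu v => ind (P := fun w => D w (u * v) = D w u * v + m.negOnePow • (u * D w v))
      (by simp) (fun _ _ a b => by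
        simp only [map_add, LinearMap.add_apply, a, b, add_mul, mul_add, smul_add]; abel)
      (fun c _ a => by
        simp only [map_smul, LinearMap.smul_apply, a, smul_add, smul_mul_assoc, mul_smul_comm,
          smul_comm c])
      (fun l => by rw [hD, T.L_mul _ hu, pc_id (bs _) (h1 l), pc_id (bs _) (h1 l)]) w
  have d3 : ∀ w w', D w (D w' e) = (c • ω) w w' • 1 := fun w w' =>
    ind (P := fun w => D w (D w' e) = (c • ω) w w' • 1) (by simp)
      (fun _ _ a b => by simp only [map_add, LinearMap.add_apply, a, b, add_smul])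
      (fun _ _ a => by simp only [map_smul, LinearMap.smul_apply, a, smul_assoc])
      (fun l => ind (P := fun w' => D (.single l 1) (D w' e) = (c • ω) (.single l 1) w' • 1)
        (by simp) (fun _ _ a b => by simp only [map_add, LinearMap.add_apply, a, b, add_smul])
        (fun _ _ a => by simp only [map_smul, LinearMap.smul_apply, a, smul_assoc])
        (fun l' => by rw [hD, hD, hLL, LinearMap.smul_apply, LinearMap.smul_apply, hω,
          smul_eq_mul]) w') w
  have sk : ω = -ω.flip := Finsupp.lhom_ext' fun l => LinearMap.ext_ring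
    (Finsupp.lhom_ext' fun l' => LinearMap.ext_ring ((hω l l').trans ((hs l l').trans
      (congrArg Neg.neg (hω l' l).symm))))
  refine P275CL.cliff (c • ω) (fun w w' => ?_) (fun w => LinearMap.mulLeft ℂ (D w e)) s (HD F) _
    (fun w => D w) ⊤ W N ⟨fun m v hv => mul_mem_Hd (add_comm 2 m) he hv, fun w _ => d1 w,
      fun w _ m v hv => mul_mem_Hd (by omega) (d1 w 2 e he) hv, fun w _ m v _ => ?_,
      fun w _ m v _ => ?_, fun w _ w' _ m v _ => ?_⟩ le_top hW
    (fun v hv w hw => by simp [iso v hv w hw])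
    (fun v hv h0 => (nd v hv h0).imp fun w hw => ⟨trivial, by simpa [hc] using hw⟩) top
  · have := congrArg (fun f => f w w') sk
    simp only [LinearMap.neg_apply, LinearMap.flip_apply] at this
    simp only [LinearMap.smul_apply, this, smul_neg]
  · simp only [LinearMap.mulLeft_apply]
    rw [d2 w 2 e he, Int.negOnePow_even 2 even_two, one_smul, add_comm]
  · simp only [LinearMap.mulLeft_apply]
    rw [← mul_assoc, T.comm F _ _ _ (d1 w 2 e he) e he,
      Int.negOnePow_even _ (even_two.mul_left _), one_smul, mul_assoc]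
  · simp only [LinearMap.mulLeft_apply]
    rw [d2 w _ _ (d1 w' 2 e he), d3, Int.negOnePow_odd _ (by decide), Units.neg_smul, one_smul,
      neg_add_cancel_right, smul_mul_assoc, one_mul]

end Vale.Agent.P275LO
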