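import Vale.Agent.P275S.HC
import Vale.Agent.P275S.Taut
import Vale.Agent.P275LO.Der

/-!
# P275, block LOOP: the cohomology of the point and of the circle, classes of degree zero
-/

open CategoryTheory TopologicalSpace Topology Filter

noncomputable section

set_option backward.isDefEq.respectTransparency false

namespace Vale.Agent.P275LO

open P275S P275S.ASL

variable {F : Type} [TopologicalSpace F]

/-- a class of degree zero which vanishes at all points is zero -/
theorem hd_det {a : HC F} (ha : a ∈ HD F 0)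
    (h : ∀ y, pc (ContinuousMap.const Unit y) a = 0) : a = 0 := by
  obtain ⟨φ, rfl⟩ := exists_lc ha
  have : φ = 0 := LocallyConstant.ext fun x => by
    have h0 := (pb_lc _ φ).symm.trans (h x)
    rw [map_eq_zero_iff _ lc_injective] at h0
    exact congrArg (· ()) h0
  rw [this, map_zero]

theorem hd_pt {m : ℤ} (hm : m ≠ 0) {a : HC Unit} (ha : a ∈ HD Unit m) : a = 0 := by
  rcases lt_or_gt_of_ne hm with h | h
  · exact eq_zero_of_neg h ha
  · exact eq_zero_of_vn (((res_I ℂ _).acy_sub Set.subsingleton_univ).2 m h) ha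

theorem lg_exp {a b : ℝ} (h : |b - a| < 2) :
    Complex.log ((Circle.exp b / Circle.exp a : Circle) : ℂ) = (b - a : ℝ) * Complex.I := by
  have := Real.pi_gt_three
  rw [abs_lt] at h
  rw [← Circle.exp_sub, Circle.coe_exp, Complex.log_exp] <;> simp <;> linarith

/-- the logarithm as a cochain on the circle -/
def lgc : List (TopCat.of Circle) → ℂ
  | [x, y] => Complex.log ((y / x : Circle) : ℂ)
  | _ => 0

theorem d_lgc : app ((AS ℂ (TopCat.of Circle)).d 1 (1 + 1)) ⊤ (am 1 ⊤ lgc) = 0 := by
  rw [AS_d_mk (by omega) rfl, am_eq_zero]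
  intro x _
  obtain ⟨t, rfl⟩ := Circle.exp_surjective x
  refine ⟨Circle.exp '' Metric.ball t 1,
    Circle.isCoveringMap_exp.isLocalHomeomorph.isOpenMap.image_mem_nhds
      (Metric.ball_mem_nhds t one_pos), fun l _ c hl => ?_⟩
  match l, c, hl with
  | [x, y, z], _, hl =>
    obtain ⟨a, ha, rfl⟩ := hl x (by simp)
    obtain ⟨b, hb, rfl⟩ := hl y (by simp)
    obtain ⟨c, hc, rfl⟩ := hl z (by simp)
    rw [Metric.mem_ball, Real.dist_eq, abs_lt] at ha hb hc
    simp only [D_cons, D_nil, lgc]
    rw [lg_exp (abs_lt.2 ⟨by linarith, by linarith⟩), lg_exp (abs_lt.2 ⟨by linarith, by linarith⟩),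
      lg_exp (abs_lt.2 ⟨by linarith, by linarith⟩)]
    push_cast
    ring
  | [], c, _ => simp at c
  | [_], c, _ => simp at c
  | [_, _], c, _ => simp at c
  | _ :: _ :: _ :: _ :: _, c, _ => simp at c; omega

theorem ex_theta : ∃ θ ∈ HD Circle 1, θ ≠ 0 := by
  let R : Rz ℂ (TopCat.of Circle) := Rz.mk' (AS ℂ _) (asOne ℂ _) d_asOne
  refine ⟨R.cl _ d_lgc, R.cl_mem _ _, fun h => ?_⟩
  obtain ⟨b, hb⟩ := (R.cl_eq_zero_iff softC_AS _ d_lgc 0 rfl).1 h
  obtain ⟨g, rfl⟩ := am_surj 0 ⊤ b
  have hb' := am_eq.1 ((AS_d_mk le_rfl rfl ⊤ g).symm.trans hb)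
  have : IsLocallyConstant fun t : ℝ => g [Circle.exp t] - t * Complex.I :=
    (IsLocallyConstant.iff_eventually_eq _).2 fun t => by
      obtain ⟨V, hV, h1⟩ := hb' (Circle.exp t) trivial
      filter_upwards [Circle.exp.continuous.continuousAt.preimage_mem_nhds hV,
        Metric.ball_mem_nhds t two_pos] with s h2 h3
      have := h1 [Circle.exp t, Circle.exp s] (by omega) (by simp) (by
        simpa using ⟨mem_of_mem_nhds hV, h2⟩)
      simp only [Pi.sub_apply, D_cons, D_nil, lgc] at this
      rw [lg_exp h3] at this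
      push_cast at this
      linear_combination this
  have h2 := this.apply_eq_of_preconnectedSpace 0 (2 * Real.pi)
  rw [Circle.exp_zero, Circle.exp_two_pi, sub_right_inj] at h2
  simp [Real.pi_ne_zero] at h2

/-- the cohomology of the circle -/
theorem H_circ {θ : HC Circle} (h : θ ∈ HD Circle 1) (h0 : θ ≠ 0) :
    Function.Bijective fun r : Bool → ℂ => ∑ i, r i • (cond i θ 1 : HC Circle) := by
  obtain ⟨c1, c2, c3⟩ := (res_I ℂ (TopCat.of Circle)).circ (isCompact_univ (X := Circle))
    (c := fun z : Circle => (z : ℂ)) continuous_subtype_val.continuousOn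
    Subtype.val_injective.injOn (by rw [Set.image_univ]; exact Subtype.range_coe)
  have : PreconnectedSpace (TopCat.of Circle) := ⟨c1⟩
  have : Nonempty (TopCat.of Circle) := ⟨(1 : Circle)⟩
  refine bij_of_deg (d := fun i => cond i 1 0) (by decide) ?_ ?_ ?_ fun n hn a ha => ?_
  · rintro (_ | _)
    exacts [one_mem_Hd, h]
  · rintro (_ | _)
    exacts [H_one_ne_zero, h0]
  · rintro (_ | _) a ha
    exacts [exists_smul_one ha, exists_smul_of_le1 c3 h h0 ha]
  · have h1 : (0 : ℤ) ≠ n := hn false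
    have h2 : (1 : ℤ) ≠ n := hn true
    rcases lt_or_gt_of_ne h1 with h3 | h3
    · exact eq_zero_of_vn (c2 n (by omega)) ha
    · exact eq_zero_of_neg h3 ha

end Vale.Agent.P275LO
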