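import Vale.Agent.P275S.Sum
import Vale.Agent.P275LO.Pt

/-!
# P275, block LOOP: the theorem of Leray and Hirsch, the product with a circle
-/

open CategoryTheory TopologicalSpace Topology

noncomputable section

set_option backward.isDefEq.respectTransparency false

namespace Vale.Agent.P275LO

open P275S

variable {k : Type} [Field k] {X Z P : TopCat.{0}}

theorem gm_bij (c : P ⟶ X) (a : X) (hc : ∀ x, c x = a) (E : Sh k P) :
    Function.Bijective (gm ((push k c).obj E) (U := ⊤) (x := a) trivial) := by
  have key : ∀ U : Opens X, a ∈ U → (Opens.map c).obj ⊤ ≤ (Opens.map c).obj U := fun U hU x _ => by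
    change c x ∈ U
    rwa [hc]
  refine ⟨(injective_iff_map_eq_zero _).2 fun s hs => ?_, fun z => ?_⟩
  · obtain ⟨V, hV, ha, h0⟩ := (gm_eq_zero _ _ s).1 hs
    have := congrArg (res E (key V ha)) h0
    rw [res_push, res_res] at this
    exact (res_self E _ s).symm.trans (this.trans (map_zero _))
  · obtain ⟨U, -, ha, s, rfl⟩ := exists_gm _ z (W := ⊤) trivial
    refine ⟨res E (key U ha) s, ?_⟩
    rw [← gm_res _ le_top ha, res_push]
    exact congrArg _ ((res_res E _ _ s).trans (res_self E _ s))

/-- the stalk of the direct image is the cohomology of the fibre -/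
theorem ex_fib [Nice Z] {p : Z ⟶ X} (hp : IsProperMap p) (a : X) {i : P ⟶ Z} (hi : IsInducing i)
    (hr : Set.range i = p ⁻¹' {a}) :
    ∃ f : HS (K k p) a ≃ₗ[k] H k P, ∀ u, f (germ a _ (evK p u)) = pb i u := by
  have h1 : Function.Bijective (germ a (K k (i ≫ p))) := evF_bijective _ _ _ fun n =>
    gm_bij (i ≫ p) a (fun x => hr.subset ⟨x, rfl⟩) _
  have h2 := (qisAt_iff_HS _ a).1 (qisAt_push hp (softC_I k Z) (injC_K i).softC (pullC k i)
    (a := a) fun x hx => by
      obtain ⟨y, rfl⟩ := hr.superset hx
      exact P275RS.qisAt_pullC hi y)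
  rw [← pull_eq_hom] at h2
  refine ⟨(LinearEquiv.ofBijective (Linear.rightComp k _ ((St k a).map (pull k i p))) h2).trans
    ((LinearEquiv.ofBijective _ h1).symm.trans (evK (i ≫ p)).symm), fun u => ?_⟩
  refine (evK (i ≫ p)).symm_apply_eq.2 ((LinearEquiv.ofBijective _ h1).symm_apply_eq.2 ?_)
  exact (germ_comp a _ _).symm.trans (congrArg _ (evK_pull i p u))

theorem stalk_one [Nice X] (a : X) :
    Function.Bijective fun r : k => r • germ a (IK k X) (unit k X) := by
  obtain ⟨f, hf⟩ := ex_fib (k := k) (p := 𝟙 X) isProperMap_id a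
    (i := TopCat.ofHom (ContinuousMap.const Unit a))
    ⟨by simp only [Subsingleton.elim (instTopologicalSpacePUnit) ⊤]; exact Subsingleton.elim _ _⟩
    (Set.range_const)
  have h1 : f (germ a (IK k X) (unit k X)) = 1 := by
    have := hf 1
    rwa [evK_one, uK_id, map_one] at this
  rw [← Function.Bijective.of_comp_iff' f.bijective]
  refine ⟨fun r r' h => ?_, fun u => ?_⟩
  · simp only [Function.comp_apply, map_smul, h1] at h
    exact smul_left_injective k H_one_ne_zero h
  · obtain ⟨r, rfl⟩ := (H_acy ((res_I k (TopCat.of Unit)).acy_sub Set.subsingleton_univ)).2 u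
    exact ⟨r (), by simp [h1]⟩

/-- the theorem of Leray and Hirsch -/
theorem lh [Nice Z] [Nice X] {p : Z ⟶ X} (hp : IsProperMap p) {ι : Type} [Fintype ι]
    (c : ι → H k Z) (d : ι → ℤ) (hc : ∀ i, c i ∈ Hd k Z (d i))
    (h : ∀ a, ∃ (P : TopCat.{0}) (i : P ⟶ Z), IsInducing i ∧ Set.range i = p ⁻¹' {a} ∧
      Function.Bijective fun r : ι → k => ∑ j, r j • pb i (c j)) :
    Function.Bijective fun a : ι → H k X => ∑ j, c j * pb p (a j) := by
  let φ : ι → (IK k X ⟶ K k p) := fun j => pullI k p ≫ mul p (c j)
  have e1 : ∀ j a, evK p (c j * pb p a) = evI k X a ≫ φ j := fun j a => by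
    rw [← evK_mul, evK_pb, evI_apply, Category.assoc, Category.assoc, Category.assoc]
  obtain ⟨ψ, -, h1, h2, h3⟩ := sum_iso (A := fun _ => IK k X) (fun _ => injC_I k X) (injC_K p) d φ
    (fun j => KG.comp_mem_deg (zero_add _) (pullI_mem p) (mul_mem p (hc j))) fun a => by
      obtain ⟨P, i, hi, hr, hb⟩ := h a
      obtain ⟨f, hf⟩ := ex_fib (k := k) hp a hi hr
      rw [← Function.Bijective.of_comp_iff' f.bijective, ← Function.Bijective.of_comp_iff _
        (Function.Bijective.piMap fun _ : ι => stalk_one (k := k) a)]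
      refine (congrArg Function.Bijective (funext fun r => ?_)).mpr hb
      simp only [Function.comp_apply, map_sum, Pi.map_apply, Linear.smul_comp, map_smul]
      refine Finset.sum_congr rfl fun j _ => congrArg _ ?_
      rw [← hf, ← germ_comp, ← mul_one (c j), ← map_one (pb p), e1]
      exact congrArg (fun x => f (germ a _ (x ≫ φ j))) (Category.comp_id _).symm
  rw [← Function.Bijective.of_comp_iff' (evK p).bijective]
  refine ⟨fun a b e => funext fun j => (evI k X).injective ?_, fun x => ?_⟩
  · have key : ∀ a : ι → H k X, (∑ l, evI k X (a l) ≫ φ l) ≫ ψ j = evI k X (a j) := fun a => by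
      rw [Preadditive.sum_comp, Finset.sum_eq_single j, Category.assoc, h1, Category.comp_id]
      · exact fun l _ hl => by rw [Category.assoc, h2 l j hl, Limits.comp_zero]
      · exact fun h => (h (Finset.mem_univ j)).elim
    simp only [Function.comp_apply, map_sum, e1] at e
    rw [← key a, e, key]
  · refine ⟨fun j => (evI k X).symm (x ≫ ψ j), ?_⟩
    simp only [Function.comp_apply, map_sum, e1, LinearEquiv.apply_symm_apply, Category.assoc]
    rw [← Preadditive.comp_sum, h3, Category.comp_id]

/-- the cohomology of the product with a circle -/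
theorem kun {θ : HC Circle} (h : θ ∈ HD Circle 1) (h0 : θ ≠ 0) (F : Type) [TopologicalSpace F]
    [Nice (TopCat.of F)] : Function.Bijective (kn θ F) := by
  have := lh (k := ℂ) (p := TopCat.ofHom (ContinuousMap.snd : C(Circle × F, F)))
    isProperMap_snd_of_compactSpace
    (fun j : Bool => pc (ContinuousMap.fst : C(Circle × F, Circle)) (cond j θ 1))
    (fun j => cond j 1 0) (fun j => pc_mem _ (by cases j; exacts [one_mem_Hd, h])) fun a =>
    ⟨TopCat.of Circle, TopCat.ofHom (ContinuousMap.prodMk (.id _) (.const _ a)),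
      isInducing_prodMkLeft a, by ext x; simp [Prod.ext_iff, eq_comm], by
        refine (congrArg Function.Bijective (funext fun r => ?_)).mpr (H_circ h h0)
        exact Finset.sum_congr rfl fun j _ => congrArg _
          ((pc_comp _ _ _).trans (pc_id _ (fun _ => rfl) _))⟩
  rw [← Function.Bijective.of_comp_iff _ (Equiv.boolArrowEquivProd (HC F)).bijective]
  refine (congrArg Function.Bijective (funext fun r => ?_)).mpr this
  simp only [Fintype.sum_bool, cond_true, cond_false, map_one, one_mul, add_comm]
  rfl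

theorem tk {θ : HC Circle} (h : θ ∈ HD Circle 1) (h0 : θ ≠ 0) : Tk θ where
  mem := h
  comm _ _ _ _ _ _ ha _ hb := mul_comm_Hd ha hb
  kun := kun h h0
  pt _ hm _ ha := hd_pt hm ha
  pt0 _ ha := Hd_zero_conn ha
  ne := H_one_ne_zero
  det _ _ _ ha := hd_det ha

end Vale.Agent.P275LO
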