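import Vale.Agent.P275LO.LH
import Vale.Agent.P275PG.Blk

/-!
# P275, block LOOP
-/

open CategoryTheory

noncomputable section

set_option backward.isDefEq.respectTransparency false

namespace Vale.Agent.P275LO

open P275S

/-- **LOOP** -/
theorem loop : P275PG.LOOP := by
  rintro F _ _ e L Q κ s N he hκ hs ⟨D⟩ ⟨W, h1, h2, h3⟩ top
  obtain ⟨θ, h, h0⟩ := ex_theta
  exact (tk h h0).onto he D.φ D.one Q κ hκ D.num (P275DL.ex2 Q)
    (fun l l' => by simp [P275DL.ex2]) hs W s h1 h2 h3 N top

end Vale.Agent.P275LO
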