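import Vale.Agent.P275S.Sum
import Vale.Agent.P275S.Htpy

/-!
# P275: a self map over a base which is homotopic to the identity on the fibres is unipotent
-/

open CategoryTheory TopologicalSpace Topology Set

noncomputable section

set_option backward.isDefEq.respectTransparency false

namespace Vale.Agent.P275LO

open P275S

variable {k : Type} [Field k] {Z O R S F : TopCat.{0}}

theorem nice_of_emb [Nice Z] {i : F ⟶ Z} (hi : IsEmbedding i) (h : IsLocallyClosed (range i)) :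
    Nice F :=
  ⟨hi.isInducing.locallyCompactSpace h, hi.t2Space, hi.secondCountableTopology⟩

/-- restriction to the fibre is bijective on the stalk -/
theorem stalk_bij [Nice Z] {q : Z ⟶ O} (hq : IsProperMap q) (a : O) {i : F ⟶ Z}
    (hi : IsInducing i) (hr : range i = q ⁻¹' {a}) :
    Function.Bijective fun v : HS (K k q) a => v ≫ (St k a).map (pull k i q) := by
  have h2 := (qisAt_iff_HS _ a).1 (qisAt_push hq (softC_I k Z) (injC_K i).softC (pullC k i)
    (a := a) fun x hx => by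
      obtain ⟨y, rfl⟩ := hr.superset hx
      exact P275RS.qisAt_pullC hi y)
  rwa [← pull_eq_hom] at h2

/-- an operator of degree zero which is killed by the restrictions to the fibres is a ghost -/
theorem ghost_of_fib [Nice Z] {q : Z ⟶ O} (hq : IsProperMap q) {f : End (K k q)}
    (hf : f ∈ KG.deg k _ _ 0) (h : ∀ a, ∃ (F : TopCat.{0}) (i : F ⟶ Z), IsInducing i ∧
      range i = q ⁻¹' {a} ∧ f ≫ pull k i q = 0) : Ghost f := by
  obtain ⟨u, hu⟩ := KG.mem_deg_zero.1 hf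
  refine ghost_iff.2 ⟨u, hu, fun a n => (zeroAt_iff_HS u n a).2 fun v _ => ?_⟩
  obtain ⟨F, i, hi, hr, e⟩ := h a
  refine (stalk_bij (k := k) hq a hi hr).1 ?_
  change (v ≫ (St k a).map (KG.hom k u)) ≫ _ = 0 ≫ _
  rw [hu, Category.assoc, ← Functor.map_comp, e, Functor.map_zero, Limits.comp_zero,
    Limits.zero_comp]

/-- the pull back along a self map over the base, as an endomorphism -/
def pe (k : Type) [Field k] (Φ : Z ⟶ Z) (q : Z ⟶ O) (e : Φ ≫ q = q) : End (K k q) :=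
  pullE k Φ q q e

theorem nilp0 [Nice Z] {q : Z ⟶ O} (hq : IsProperMap q) (Φ : Z ⟶ Z) (e : Φ ≫ q = q) (b : ℤ)
    (fib : ∀ s, ∃ (F : TopCat.{0}) (i : F ⟶ Z) (φ : F ⟶ F), IsInducing i ∧
      range i = q ⁻¹' {s} ∧ φ ≫ i = i ≫ Φ ∧ φ.hom.Homotopic (ContinuousMap.id F) ∧
      ∀ m, b < m → Hd k F m = ⊥) :
    (1 - pe k Φ q e) ^ (b + 1).toNat = 0 := by
  have := isLE_K (k := k) hq (b := b) fun s => by
    obtain ⟨F, i, -, h1, h2, -, -, h3⟩ := fib s
    exact ⟨F, i, h1, h2, h3⟩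
  refine nil_K (b := b) (ghost_of_fib hq (sub_mem (KG.id_mem_deg _) (pullE_mem _ _ _ _))
    fun s => ⟨_, sub _, sub_inducing _, range_sub _, ?_⟩) (Int.self_le_toNat _)
  obtain ⟨F, i, φ, h1, h2, h3, ⟨G⟩, -⟩ := fib s
  have : Nice (TopCat.of (q ⁻¹' {s})) := nice_of_emb (i := sub _) IsEmbedding.subtypeVal (by
    rw [range_sub]
    exact (hq.isCompact_preimage isCompact_singleton).isClosed.isLocallyClosed)
  choose σ hσ using fun x : q ⁻¹' {s} => h2.superset x.2
  have hc : Continuous σ := h1.continuous_iff.2 (by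
    rw [show i ∘ σ = Subtype.val from funext hσ]
    exact continuous_subtype_val)
  have key := pullE_homotopy (k := k) (f₀ := sub (q ⁻¹' {s}) ≫ Φ) (f₁ := sub (q ⁻¹' {s}))
    ⟨⟨fun z => i (G (z.1, σ z.2)), by fun_prop⟩, fun x => by
      have := congrArg (fun f : F ⟶ Z => f (σ x)) h3
      exact (congrArg i (G.apply_zero _)).trans (this.trans (congrArg Φ (hσ x))),
      fun x => (congrArg i (G.apply_one _)).trans (hσ x)⟩ q (sub _ ≫ q)
    (fun t x => (h2.subset ⟨_, rfl⟩).trans x.2.symm) (by rw [Category.assoc, e]) rfl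
  rw [← pullE_comp (sub _) Φ q q _ e rfl, pullE_rfl] at key
  exact (Preadditive.sub_comp _ _ _).trans (sub_eq_zero.2 ((Category.id_comp _).trans key.symm))

theorem nilp_push {q : Z ⟶ O} (o : O ⟶ S) {h : Z ⟶ S} (c : q ≫ o = h) {Φ : Z ⟶ Z}
    (e : Φ ≫ q = q) (e' : Φ ≫ h = h) {m : ℕ}
    (H : (1 - pe k Φ q e) ^ m = 0) :
    (1 - pe k Φ h e') ^ m = 0 := by
  subst c
  have := congrArg (endMap (k := k) (pushK k o) (K k q)) H
  rw [map_pow, map_sub, map_one, map_zero, endMap_apply, pe, push_pullE] at this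
  exact this

/-- **NILP** -/
theorem nilp [Nice R] (j : Z ⟶ R) (g : R ⟶ S) (hg : IsProperMap g) (hj : IsEmbedding j)
    {O : Set S} (hO : IsOpen O) (hr : range j = g ⁻¹' O) (Φ : Z ⟶ Z)
    (e : Φ ≫ j ≫ g = j ≫ g) (b : ℤ)
    (fib : ∀ s ∈ O, ∃ (F : TopCat.{0}) (i : F ⟶ Z) (φ : F ⟶ F), IsInducing i ∧
      range i = (j ≫ g) ⁻¹' {s} ∧ φ ≫ i = i ≫ Φ ∧ φ.hom.Homotopic (ContinuousMap.id F) ∧
      ∀ m, b < m → Hd k F m = ⊥) :
    ∃ m : ℕ, (1 - pe k Φ (j ≫ g) e) ^ m = 0 := by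
  have : Nice Z := nice_of_emb hj (hr ▸ (hO.preimage g.hom.continuous).isLocallyClosed)
  let q : Z ⟶ TopCat.of O := TopCat.ofHom ⟨fun x => ⟨g (j x), hr.subset ⟨x, rfl⟩⟩,
    (g.hom.continuous.comp j.hom.continuous).subtype_mk _⟩
  have hq : IsProperMap q :=
    (hg.restrictPreimage O).comp (hj.toHomeomorph.trans (Homeomorph.setCongr hr)).isProperMap
  have e0 : Φ ≫ q = q := by
    ext x
    exact congrArg (fun f : Z ⟶ S => f x) e
  refine ⟨_, nilp_push (sub O) rfl e0 e (nilp0 hq Φ e0 b fun s => ?_)⟩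
  obtain ⟨F, i, φ, h1, h2, h3⟩ := fib s.1 s.2
  exact ⟨F, i, φ, h1, h2.trans (Set.ext fun x => (Subtype.ext_iff (a1 := q x) (a2 := s)).symm), h3⟩

end Vale.Agent.P275LO
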